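import Vale.Agent.P231.S3B4.Rad2
import Vale.Agent.P231.S3B.Val

/-!
# P231, stage 3, [S3-B] (B4): the primitive on the sphere of radius `ρ` in terms of the disc
-/

set_option linter.unusedSectionVars false
set_option linter.unusedVariables false

open MeasureTheory Set Module Filter Topology Metric
open scoped ContDiff Real ENNReal

namespace Vale.Agent.P231.S3B4i

open Vale.Agent.P231.Fm Vale.Agent.P231.W Vale.Agent.P231.H584 Vale.Agent.P231.S3L
  Vale.Agent.P231.H766 Vale.Agent.P231.TW Vale.Agent.P231.S3B4 Vale.Agent.P231.S3B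
open Vale.Agent.P231.Fm.Form (IsDeg)

section Gen

variable {X : Type*} {D : Dif X}

/-- change of the parameter in the homotopy operator -/
theorem K_stp (w : Form (D.prod (Dif.lin ℝ))) :
    Form.K (Form.pull (fun p : X × ℝ => (p.1, stp p.2)) (map_rep stp_contDiff) w) = Form.K w := by
  rw [K_rep stp_contDiff w, stp0, stp1]
  refine Form.ext_val fun E _ _ _ u x h => ?_
  rw [seg_val _ _ _ h, K_val' _ h]

variable {M : Type*} {DM : Dif M} {T : ℝ} {Φ : X × ℝ → X} (h : IsFlow D T Φ)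
include h

theorem map_loop {f : X → M} (hf : D.Map DM f) :
    (D.prod (Dif.lin ℝ)).Map DM (fun p : X × ℝ => f (Φ (p.1, T * p.2))) :=
  fun {E} _ _ _ {u x} hu => hf (h.map (map_scale T hu))

/-- the form `t₂` of a flow and the form `t₂` of the family of its loops -/
theorem t2_T2n (hT : T ≠ 0) {f : X → M} (hf : D.Map DM f) (F : Form DM) :
    t2 2 Φ h.map T (Form.pull f hf F) = T2n (fun p : X × ℝ => f (Φ (p.1, T * p.2)))
      (map_loop h hf) F := by
  have h1 : (D.prod (Dif.lin ℝ)).Map D (scl T Φ) := map_scl T h.map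
  have hcT : T * 1 = T := mul_one T
  have hc : ∀ (p : X × ℝ) (t : ℝ), scl T Φ (sh (p, t)) = scl T Φ (scl T Φ p, t) := fun p t => by
    change Φ (p.1, T * (p.2 + t)) = Φ (Φ (p.1, T * p.2), T * t)
    rw [h.add, mul_add]
  have e1 := pull_t2 (map_sh (D := D)) h1 h1 hc 2 1 (Form.pull f hf F)
  have e2 : Form.pull (scl T Φ) h1 (Form.pull f hf F) =
      Form.pull (fun p : X × ℝ => f (Φ (p.1, T * p.2))) (map_loop h hf) F :=
    pull_pull h1 hf (map_loop h hf) (fun _ => rfl) F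
  rw [e2] at e1
  rw [T2n_def, ← e1, ← t2_scl hT hcT h.map 2 (Form.pull f hf F)]
  have h3 : D.Map D (fun x => x) := fun h => h
  have e3 : at_ 0 (Form.pull (scl T Φ) h1 (t2 2 (scl T Φ) (map_scl T h.map) 1
      (Form.pull f hf F))) = Form.pull (fun x => x) h3 (t2 2 (scl T Φ) (map_scl T h.map) 1
      (Form.pull f hf F)) :=
    pull_pull (Form.map_slice 0) h1 h3 (fun x => by
      change Φ (x, T * 0) = x
      rw [mul_zero, h.zero]) _
  exact (e3.trans (Form.pull_id h3 _)).symm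

end Gen

section Ident

variable {Z A G : Type} [NormedAddCommGroup Z] [NormedSpace ℝ Z] [FiniteDimensional ℝ Z]
  [NormedAddCommGroup A] [NormedSpace ℝ A] [FiniteDimensional ℝ A]
  [NormedAddCommGroup G] [NormedSpace ℝ G] [FiniteDimensional ℝ G]

variable {nw : G → ℝ} {r₁ R ρ : ℝ}

variable {X M : Type*} {D : Dif X} [MetricSpace M] {DM : Dif M} {S : NNReal} {W : ℝ≥0∞} {δ : ℝ}
  {J : ℕ} {Y : Type*} {DY : Dif Y} {OY : Set Y} {c : Y → ℝ → M} {a : Y → Fin J → ℂ}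

/-- **the identity on the annulus**: the primitive of `t₂` over the sphere of radius `ρ`, minus the
integral of `t₂` along the rays, is the pull back by the retraction of `L - K₀ T` -/
theorem ident (hn : SmN nw) (h0 : 0 ≤ r₁) (h1 : r₁ < ρ) (h2 : ρ < R)
    {T : ℝ} {Φ : X × ℝ → X} (h : IsFlow D T Φ) (hT : T ≠ 0) {H : X × ℝ → M}
    (hH : (D.prod (Dif.lin ℝ)).Map DM H) {Ψ : Z × (A × G) → X}
    (hΨ : ((Dif.lin (Z × (A × G))).on (W1 nw r₁ R)).Map D Ψ)
    (hFA : FA DY DM S W δ J OY c a) {kp : Z × (A × G) → Y}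
    (hk : ((Dif.lin (Z × (A × G))).on (U1 nw R)).Map DY kp) {O : Set (Z × (A × G))}
    (hkO : ((Dif.lin (Z × (A × G))).on O).Map (DY.on OY) kp) (hO2 : W1 nw r₁ R ⊆ O)
    (hpt : ∀ p ∈ W1 nw r₁ R, ∀ s t, c (kp (cS (ret nw ρ p, s))) t = H (Φ (Ψ p, T * t), stp s))
    (z0 : LL DM S W δ J) (ℓ : Form (dLL DM S W δ J)) (F : Form DM) {σ : Z × (A × G) → LL DM S W δ J}
    (hσ : ((Dif.lin (Z × (A × G))).on (W1 nw r₁ R)).Map (dLL DM S W δ J) σ)
    (hσe : ∀ p ∈ W1 nw r₁ R, σ p = tl z0 c a (kp (ret nw ρ p))) :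
    Form.pull σ hσ ℓ - Form.pull Ψ hΨ (Form.K (t2 2 (cflow Φ) (map_cflow h.map) T
        (Form.pull H hH F))) =
      Form.pull (ret nw ρ) (map_ret hn h0 h1 h2)
        (Form.pull id (Dif.map_on_mono hO2) (Form.pull kp hkO (hFA.L z0 ℓ)) -
          Form.pull id (Dif.map_on_mono W1_sub) (K0 hn (Form.pull kp hk (hFA.T F)))) := by
  have hret : ((Dif.lin (Z × (A × G))).on (W1 nw r₁ R)).Map
      ((Dif.lin (Z × (A × G))).on (W1 nw r₁ R)) (ret nw ρ) := map_ret hn h0 h1 h2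
  -- the first term
  have e1 : Form.pull σ hσ ℓ = Form.pull (ret nw ρ) hret
      (Form.pull id (Dif.map_on_mono hO2) (Form.pull kp hkO (hFA.L z0 ℓ))) := by
    refine Form.ext_val fun E _ _ _ u x hu => ?_
    have hu1 := hret hu
    have hu2 : ((Dif.lin (Z × (A × G))).on O).At (id ∘ ret nw ρ ∘ u) x := Dif.map_on_mono hO2 hu1
    rw [Form.pull_val _ _ hu, Form.pull_val _ _ hu, Form.pull_val _ _ hu1,
      Form.pull_val _ _ hu2, FA.L, Form.pull_val _ _ (hkO hu2)]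
    refine ℓ.congr (hσ hu) ?_
    filter_upwards [hu.2] with y hy using hσe (u y) hy
  -- the second term
  have hm : (((Dif.lin (Z × (A × G))).on (W1 nw r₁ R)).prod (Dif.lin ℝ)).Map
      ((Dif.lin (Z × (A × G))).on (U1 nw R)) (fun q => cS (ret nw ρ q.1, q.2)) := by
    intro E _ _ _ u x hu
    have k1 : (((Dif.lin (Z × (A × G))).on (U1 nw R)).prod (Dif.lin ℝ)).At
        (fun y => (ret nw ρ (u y).1, (u y).2)) x := by
      have k2 := hret (u := fun y => (u y).1) (x := x) hu.1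
      exact ⟨⟨k2.1, k2.2.mono fun y hy => W1_sub hy⟩, hu.2⟩
    exact map_cS hn k1
  have e2 : Form.pull (ret nw ρ) hret (Form.pull id (Dif.map_on_mono W1_sub)
      (K0 hn (Form.pull kp hk (hFA.T F)))) =
      Form.K (Form.pull (fun q => cS (ret nw ρ q.1, q.2)) hm (Form.pull kp hk (hFA.T F))) := by
    have k0 : ((Dif.lin (Z × (A × G))).on (W1 nw r₁ R)).Map
      ((Dif.lin (Z × (A × G))).on (U1 nw R)) (ret nw ρ) := fun {E} _ _ _ {u x} hu =>
        ⟨(hret hu).1, (hret hu).2.mono fun y hy => W1_sub hy⟩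
    have k1 : Form.pull (ret nw ρ) hret (Form.pull id (Dif.map_on_mono W1_sub)
        (K0 hn (Form.pull kp hk (hFA.T F)))) = Form.pull (ret nw ρ) k0
        (K0 hn (Form.pull kp hk (hFA.T F))) :=
      pull_pull hret (Dif.map_on_mono W1_sub) k0 (fun _ => rfl) _
    have k2 := K_nat k0 (Form.pull cS (map_cS hn) (Form.pull kp hk (hFA.T F)))
    have k3 : Form.pull (fun p : (Z × (A × G)) × ℝ => (ret nw ρ p.1, p.2)) (map_cyl k0)
        (Form.pull cS (map_cS hn) (Form.pull kp hk (hFA.T F))) =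
        Form.pull (fun q => cS (ret nw ρ q.1, q.2)) hm (Form.pull kp hk (hFA.T F)) :=
      pull_pull (map_cyl k0) (map_cS hn) hm (fun _ => rfl) _
    rw [k3] at k2
    exact k1.trans k2.symm
  have hΨc : (((Dif.lin (Z × (A × G))).on (W1 nw r₁ R)).prod (Dif.lin ℝ)).Map
      (D.prod (Dif.lin ℝ)) (fun p => (Ψ p.1, p.2)) := map_cyl hΨ
  have e3 : Form.pull Ψ hΨ (Form.K (t2 2 (cflow Φ) (map_cflow h.map) T (Form.pull H hH F))) =
      Form.K (Form.pull (fun p : (Z × (A × G)) × ℝ => (p.1, stp p.2)) (map_rep stp_contDiff)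
        (Form.pull (fun p : (Z × (A × G)) × ℝ => (Ψ p.1, p.2)) hΨc
          (t2 2 (cflow Φ) (map_cflow h.map) T (Form.pull H hH F)))) := by
    rw [K_stp]
    exact (K_nat hΨ _).symm
  have e4 : Form.pull (fun p : (Z × (A × G)) × ℝ => (p.1, stp p.2)) (map_rep stp_contDiff)
        (Form.pull (fun p : (Z × (A × G)) × ℝ => (Ψ p.1, p.2)) hΨc
          (t2 2 (cflow Φ) (map_cflow h.map) T (Form.pull H hH F))) =
      Form.pull (fun q => cS (ret nw ρ q.1, q.2)) hm (Form.pull kp hk (hFA.T F)) := by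
    have k1 := t2_T2n (isFlow_cflow h) hT hH F
    have k2 : Form.pull (fun p : (Z × (A × G)) × ℝ => (Ψ p.1, p.2)) hΨc
        (t2 2 (cflow Φ) (map_cflow h.map) T (Form.pull H hH F)) =
        Form.pull (fun p : (Z × (A × G)) × ℝ => (Ψ p.1, p.2)) hΨc
          (T2n (fun p : (X × ℝ) × ℝ => H (cflow Φ (p.1, T * p.2)))
            (map_loop (isFlow_cflow h) hH) F) := congrArg _ k1
    rw [k2, hFA.T_eq]
    have hm2 : (((Dif.lin (Z × (A × G))).on (W1 nw r₁ R)).prod (Dif.lin ℝ)).Map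
        (D.prod (Dif.lin ℝ)) (fun p : (Z × (A × G)) × ℝ => (Ψ p.1, stp p.2)) :=
      fun {E} _ _ _ {u x} hu => hΨc (map_rep stp_contDiff hu)
    have hm3 : (((Dif.lin (Z × (A × G))).on (W1 nw r₁ R)).prod (Dif.lin ℝ)).Map DY
        (fun q : (Z × (A × G)) × ℝ => kp (cS (ret nw ρ q.1, q.2))) :=
      fun {E} _ _ _ {u x} hu => hk (hm hu)
    rw [pull_pull (map_rep stp_contDiff) hΨc hm2 (fun _ => rfl), pull_pull hm hk hm3 (fun _ => rfl)]
    have j1 : ((((Dif.lin (Z × (A × G))).on (W1 nw r₁ R)).prod (Dif.lin ℝ)).prod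
        (Dif.lin ℝ)).Map DM (fun p => H (cflow Φ ((Ψ p.1.1, stp p.1.2), T * p.2))) :=
      fun {E} _ _ _ {u x} hu => map_loop (isFlow_cflow h) hH
        (u := fun y => ((Ψ (u y).1.1, stp (u y).1.2), (u y).2)) ⟨hm2 hu.1, hu.2⟩
    have j2 : ((((Dif.lin (Z × (A × G))).on (W1 nw r₁ R)).prod (Dif.lin ℝ)).prod
        (Dif.lin ℝ)).Map DM (fun p => c (kp (cS (ret nw ρ p.1.1, p.1.2))) p.2) :=
      fun {E} _ _ _ {u x} hu => map_uncurry hFA.map
        (u := fun y => (kp (cS (ret nw ρ (u y).1.1, (u y).1.2)), (u y).2)) ⟨hm3 hu.1, hu.2⟩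
    rw [pull_T2n hm2 _ j1 (fun _ _ => rfl) F, pull_T2n hm3 _ j2 (fun _ _ => rfl) F]
    refine T2n_congr j1 j2 (fun x hx t => ?_) F
    have hx1 : x.1 ∈ W1 nw r₁ R := hx.1.2.self_of_nhds
    exact (hpt x.1 hx1 x.2 t).symm
  rw [H584.pull_sub, ← e1, e2, e3, e4]

end Ident

end Vale.Agent.P231.S3B4i
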