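import Vale.Agent.P231.S3B4.Rad2

/-!
# P231, stage 3, [S3-B] (B4): appending a zero function, rotation of the vector to a constant
-/

set_option linter.unusedSectionVars false
set_option linter.unusedVariables false

open MeasureTheory Set Module Filter Topology Metric
open scoped ContDiff Real ENNReal

namespace Vale.Agent.P231.S3B4i

open Vale.Agent.P231.Fm Vale.Agent.P231.W Vale.Agent.P231.H584 Vale.Agent.P231.S3L
  Vale.Agent.P231.H766 Vale.Agent.P231.TW Vale.Agent.P231.S3B4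
open Vale.Agent.P231.Fm.Form (IsDeg)

variable {M : Type*} [MetricSpace M] {DM : Dif M} {S : NNReal} {V : ℝ≥0∞} {δ : ℝ} {J : ℕ}
  {B : Type*} {DB : Dif B} {A : CAct DB}

/-- **append a zero function** -/
noncomputable def snoc0 (X : Fam A DM S V δ J) : Fam A DM S V δ (J + 1) where
  C := X.C
  F j := if h : (j : ℕ) < J then X.F ⟨j, h⟩ else fun _ => 0
  pt := X.pt
  hC := X.hC
  hF j := by
    split_ifs with h
    · exact X.hF ⟨j, h⟩
    · intro hu
      exact Sm.of_contDiff contDiff_const _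
  equi j := by
    split_ifs with h
    · exact X.equi ⟨j, h⟩
    · intro b s
      simp
  lip := X.lip
  var := X.var
  cov b := by
    obtain ⟨j, hj⟩ := X.cov b
    refine ⟨j.castSucc, ?_⟩
    have h : ((j.castSucc : Fin (J + 1)) : ℕ) < J := j.2
    rw [dif_pos h]
    exact hj

theorem snoc0_C (X : Fam A DM S V δ J) (b : B) : (snoc0 X).C b = X.C b := rfl

theorem snoc0_last (X : Fam A DM S V δ J) (b : B) : (snoc0 X).F (Fin.last J) b = 0 := by
  have h : ¬ ((Fin.last J : Fin (J + 1)) : ℕ) < J := by simp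
  change (if h : ((Fin.last J : Fin (J + 1)) : ℕ) < J then X.F ⟨_, h⟩ else fun _ => 0) b = 0
  rw [dif_neg h]

theorem snoc0_castSucc (X : Fam A DM S V δ J) (j : Fin J) (b : B) :
    (snoc0 X).F j.castSucc b = X.F j b := by
  have h : ((j.castSucc : Fin (J + 1)) : ℕ) < J := j.2
  change (if h : ((j.castSucc : Fin (J + 1)) : ℕ) < J then X.F ⟨_, h⟩ else fun _ => 0) b = _
  rw [dif_pos h]
  rfl

section Rot

variable (Z : Fam A DM S V δ (J + 1))

/-- the interpolated vector -/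
noncomputable def av (p : B × ℝ) (j : Fin (J + 1)) : ℂ :=
  if j = Fin.last J then (stp p.2 : ℂ) else ((1 - stp p.2 : ℝ) : ℂ) * Z.F j p.1

/-- the constant vector -/
noncomputable def eL (J : ℕ) (j : Fin (J + 1)) : ℂ := if j = Fin.last J then 1 else 0

theorem av_one (b : B) : av Z (b, 1) = eL J := by
  funext j
  unfold av eL
  split_ifs with h
  · simp [stp1]
  · simp [stp1]

theorem av_zero (hl : ∀ b, Z.F (Fin.last J) b = 0) (b : B) (j : Fin (J + 1)) :
    av Z (b, 0) j = Z.F j b := by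
  unfold av
  split_ifs with h
  · rw [h, hl]
    simp [stp0]
  · simp [stp0]

/-- the family of the homotopy -/
noncomputable def rotF (hδ : δ ≤ 1 / 2) (hδ0 : 0 < δ) (hl : ∀ b, Z.F (Fin.last J) b = 0)
    (hcov : ∀ b, ∃ j, 2 * δ ≤ ‖Z.F j b‖) :
    Fml (DB.prod (Dif.lin ℝ)) DM S V δ (J + 1) where
  c p t := Z.C (A.φ p.1 t)
  a := av Z
  pt y := ⟨Z.pt y.1, Sm.of_contDiff contDiff_const _⟩
  hc := by
    intro E _ _ _ u x hu
    exact Z.at_loop hu.1.1 hu.2
  ha := by
    intro E _ _ _ u x hu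
    have h1 : Sm (fun y => stp (u y).2) x := sm_stp hu.2
    have h2 : ∀ j, Sm (fun y => Z.F j (u y).1) x := fun j => Z.hF j hu.1
    have h3 : ∀ j : Fin (J + 1), Sm (fun y => av Z (u y) j) x := by
      intro j
      unfold av
      split_ifs with h
      · filter_upwards [h1] with y hy
        exact Complex.ofRealCLM.contDiff.contDiffAt.comp y hy
      · filter_upwards [h1, h2 j] with y hy hy'
        refine ContDiffAt.mul ?_ hy'
        exact Complex.ofRealCLM.contDiff.contDiffAt.comp y (contDiffAt_const.sub hy)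
    have h4 := eventually_all.2 h3
    filter_upwards [h4] with y hy
    exact contDiffAt_pi.2 hy
  per p t := Z.per p.1 t
  lip p := LipschitzWith.of_dist_le_mul fun s t => by
    rw [Real.dist_eq]
    exact Z.lip p.1 s t
  var p := Z.var p.1
  cov p := by
    obtain ⟨j, hj⟩ := hcov p.1
    have hj0 : j ≠ Fin.last J := by
      rintro rfl
      rw [hl, norm_zero] at hj
      linarith
    obtain ⟨s0, s1⟩ := H766.stp_mem p.2
    by_cases h : stp p.2 ≤ 1 / 2
    · refine ⟨j, ?_⟩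
      unfold av
      rw [if_neg hj0, norm_mul, Complex.norm_real, Real.norm_of_nonneg (by linarith)]
      nlinarith
    · push Not at h
      refine ⟨Fin.last J, ?_⟩
      unfold av
      rw [if_pos rfl, Complex.norm_real, Real.norm_of_nonneg s0]
      linarith

variable {Z} (hδ : δ ≤ 1 / 2) (hδ0 : 0 < δ) (hl : ∀ b, Z.F (Fin.last J) b = 0)
  (hcov : ∀ b, ∃ j, 2 * δ ≤ ‖Z.F j b‖)

theorem rotF_zero (b : B) : (rotF Z hδ hδ0 hl hcov).cls (b, 0) = Z.cls b :=
  LL.ext' (fun t => rfl) fun j => av_zero Z hl b j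

theorem rotF_a (b : B) : ((rotF Z hδ hδ0 hl hcov).cls (b, 1)).a = eL J := av_one Z b

theorem rotF_c (b : B) (s t : ℝ) : ((rotF Z hδ hδ0 hl hcov).cls (b, s)).c t = (Z.cls b).c t := rfl

/-- **rotation of the vector** -/
theorem exists_rot {F : Form DM} {ℓ : Form (dLL DM S V δ (J + 1))}
    (hℓ : ℓ.d = t2L S V δ (J + 1) F) (hd : IsDeg 28 ℓ) (hv : Van {z | Cst z} ℓ) :
    ∃ κ : Form DB, IsDeg 27 κ ∧ Van {b | ∀ t, Z.C (A.φ b t) = Z.C b} κ ∧
      Form.pull (fun b => (rotF Z hδ hδ0 hl hcov).cls (b, 1))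
        (map_at (rotF Z hδ hδ0 hl hcov).map_cls 1) ℓ - Form.pull Z.cls Z.map_cls ℓ = κ.d := by
  have h1 := lam_indep hδ0 hℓ (rotF Z hδ hδ0 hl hcov).map_cls
    (fun x r t => (rotF_c hδ hδ0 hl hcov x r t).trans (rotF_c hδ hδ0 hl hcov x 0 t).symm)
  have h2 : Form.pull (fun b => (rotF Z hδ hδ0 hl hcov).cls (b, 0))
      (map_at (rotF Z hδ hδ0 hl hcov).map_cls 0) ℓ = Form.pull Z.cls Z.map_cls ℓ :=
    Form.pull_congr _ _ (funext fun b => rotF_zero hδ hδ0 hl hcov b) ℓ
  rw [h2] at h1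
  refine ⟨_, IsDeg.K (IsDeg.pull hd _ (rotF Z hδ hδ0 hl hcov).map_cls), ?_, h1⟩
  refine Van.K ?_
  intro E _ _ _ u x hu hx
  rw [Form.pull_val _ _ hu]
  refine hv ((rotF Z hδ hδ0 hl hcov).map_cls hu) ?_
  filter_upwards [hx] with y hy t
  have h3 : ∀ t, Z.C (A.φ (u y).1 t) = Z.C (u y).1 := hy.1
  have h4 : Z.C (A.φ (u y).1 t) = Z.C (A.φ (u y).1 0) := by rw [h3, h3]
  exact h4

end Rot

end Vale.Agent.P231.S3B4i
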